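import Vale.Agent.Lib.P238.Params

/-!
The sequence space distortion of edit distance on the binary cube grows at least like
the square of the logarithm divided by the iterated logarithm.
-/

theorem Vale.Agent.Results.P238.SquaredLogLower.result :
    ∀ n : ℕ, 2 ^ 32 ≤ n → ∀ (φ : (Fin n → Bool) → lp (fun _ : ℕ => ℝ) 1) (A B : ℝ),
      (∀ x y, ‖φ x - φ y‖ ≤ A * (Vale.Agent.Lib.P238.edCube x y : ℝ)) →
      (∀ x y, (Vale.Agent.Lib.P238.edCube x y : ℝ) ≤ B * ‖φ x - φ y‖) →
      1 / 50331648 * Real.log n ^ 2 / Real.log (Real.log n) ≤ A * B :=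
  fun _ hn φ A B hA hB => Vale.Agent.Lib.P238.asymptotic hn φ A B hA hB
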